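import Crest.Agent.R113.Circ.Gap

/-! Row 113, T16: the cost function of one block. -/

set_option autoImplicit false

namespace Crest.Agent.R113.Circ

open MeasureTheory Metric Finset

/-- Data of one block: cell length `M`, gap `g`, times `t k`, arcs `I' ⊆ I ⊆ J`, bumps. -/
structure BlockData (α : UnitAddCircle) (M g : ℕ) where
  t : ℕ → ℕ
  t_ge : ∀ k, k * M ≤ t k
  t_lt : ∀ k, t k < k * M + g
  r1 : ℝ
  r2 : ℝ
  r3 : ℝ
  r12 : r1 < r2
  r23 : r2 < r3
  bump : UnitAddCircle → ℝ
  chi : UnitAddCircle → ℝ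
  bump_cont : Continuous bump
  chi_cont : Continuous chi
  bump_nonneg : ∀ x, 0 ≤ bump x
  bump_le : ∀ x, bump x ≤ 1
  chi_nonneg : ∀ x, 0 ≤ chi x
  chi_le : ∀ x, chi x ≤ 1
  bump_one : ∀ x ∈ closedBall (0 : UnitAddCircle) r1, bump x = 1
  bump_zero : ∀ x ∉ ball (0 : UnitAddCircle) r2, bump x = 0
  chi_one : ∀ x ∈ ball (0 : UnitAddCircle) r2, chi x = 1
  chi_zero : ∀ x ∉ ball (0 : UnitAddCircle) r3, chi x = 0

/-- existence of a continuous function which is one on a closed ball, zero off a larger ball -/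
theorem exists_bump {r s : ℝ} (h : r < s) : ∃ f : UnitAddCircle → ℝ, Continuous f ∧
    (∀ x, 0 ≤ f x) ∧ (∀ x, f x ≤ 1) ∧ (∀ x ∈ closedBall (0 : UnitAddCircle) r, f x = 1) ∧
    (∀ x ∉ ball (0 : UnitAddCircle) s, f x = 0) := by
  refine ⟨fun x => max 0 (min 1 ((s - ‖x‖) / (s - r))), ?_, ?_, ?_, ?_, ?_⟩
  · fun_prop
  · intro x; exact le_max_left _ _
  · intro x; exact max_le zero_le_one (min_le_left _ _)
  · intro x hx
    have hx' : ‖x‖ ≤ r := by simpa using hx
    have : 1 ≤ (s - ‖x‖) / (s - r) := by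
      rw [le_div_iff₀ (by linarith)]; linarith
    simp only [min_eq_left this]
    norm_num
  · intro x hx
    have hx' : s ≤ ‖x‖ := by simpa using hx
    have : (s - ‖x‖) / (s - r) ≤ 0 := div_nonpos_of_nonpos_of_nonneg (by linarith) (by linarith)
    exact max_eq_left ((min_le_right _ _).trans this)

theorem exists_blockData (α : UnitAddCircle) (M g : ℕ) (t : ℕ → ℕ) (t_ge : ∀ k, k * M ≤ t k)
    (t_lt : ∀ k, t k < k * M + g) (r1 r2 r3 : ℝ) (r12 : r1 < r2) (r23 : r2 < r3) :
    ∃ D : BlockData α M g, D.t = t ∧ D.r1 = r1 ∧ D.r2 = r2 ∧ D.r3 = r3 := by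
  obtain ⟨f, f1, f2, f3, f4, f5⟩ := exists_bump r12
  obtain ⟨h, h1, h2, h3, h4, h5⟩ := exists_bump r23
  exact ⟨⟨t, t_ge, t_lt, r1, r2, r3, r12, r23, f, h, f1, h1, f2, f3, h2, h3, f4, f5,
    fun x hx => h4 x (ball_subset_closedBall hx), h5⟩, rfl, rfl, rfl, rfl⟩

namespace BlockData

variable {α : UnitAddCircle} {M g : ℕ} (D : BlockData α M g)

/-- the `k`-th cost profile -/
noncomputable def piece (k : ℕ) (x : UnitAddCircle) : ℝ :=
  D.bump (x - D.t k • α) *
    ∏ i ∈ Icc 1 (D.t k + M), (1 - D.chi (x - D.t k • α + i • α))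

theorem piece_cont (k : ℕ) : Continuous (D.piece k) := by
  unfold piece
  have h1 := D.bump_cont
  have h2 := D.chi_cont
  fun_prop

theorem piece_nonneg (k : ℕ) (x : UnitAddCircle) : 0 ≤ D.piece k x :=
  mul_nonneg (D.bump_nonneg _) (Finset.prod_nonneg fun i _ => by linarith [D.chi_le (x - D.t k • α + i • α)])

theorem piece_le (k : ℕ) (x : UnitAddCircle) : D.piece k x ≤ 1 := by
  unfold piece
  refine mul_le_one₀ (D.bump_le _)
    (Finset.prod_nonneg fun i _ => by linarith [D.chi_le (x - D.t k • α + i • α)])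
    (Finset.prod_le_one (fun i _ => by linarith [D.chi_le (x - D.t k • α + i • α)])
      (fun i _ => by linarith [D.chi_nonneg (x - D.t k • α + i • α)]))

/-- a nonzero piece comes from a point of `I` which does not return for a long time -/
theorem piece_ne_zero {k : ℕ} {x : UnitAddCircle} (h : D.piece k x ≠ 0) :
    x - D.t k • α ∈ ball (0 : UnitAddCircle) D.r2 ∧
    ∀ i, 1 ≤ i → i ≤ D.t k + M → x - D.t k • α + i • α ∉ ball (0 : UnitAddCircle) D.r2 := by
  unfold piece at h
  constructor
  · by_contra hx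
    exact h (by rw [D.bump_zero _ hx, zero_mul])
  · intro i h1 h2 hx
    apply h
    rw [Finset.prod_eq_zero (i := i) (by simp [h1, h2]), mul_zero]
    rw [D.chi_one _ hx]; ring

theorem t_strictMono (hg : g ≤ M) : StrictMono D.t := by
  refine strictMono_nat_of_lt_succ fun k => ?_
  have h1 := D.t_lt k
  have h2 := D.t_ge (k + 1)
  have : (k + 1) * M = k * M + M := by ring
  omega

/-- support set of the block -/
def W : Set UnitAddCircle := {x | ∃ k, D.piece k x ≠ 0}

theorem isOpen_W : IsOpen D.W := by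
  have : D.W = ⋃ k, {x | D.piece k x ≠ 0} := by ext x; simp [W]
  rw [this]
  exact isOpen_iUnion fun k => isOpen_ne_fun (D.piece_cont k) continuous_const

/-- two visits of the support within one column (general form). -/
theorem no_double {k k' : ℕ} {x : UnitAddCircle} {i : ℕ} (hk : D.piece k x ≠ 0)
    (hk' : D.piece k' (x + i • α) ≠ 0) (hi : i ≤ M) : D.t k' = D.t k + i := by
  obtain ⟨h1, h2⟩ := D.piece_ne_zero hk
  obtain ⟨h1', h2'⟩ := D.piece_ne_zero hk'
  rcases lt_trichotomy (D.t k') (D.t k + i) with hlt | heq | hgt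
  · exfalso
    obtain ⟨s, hs⟩ : ∃ s, D.t k + i = D.t k' + s := ⟨D.t k + i - D.t k', by omega⟩
    apply h2 s (by omega) (by omega)
    have : x - D.t k • α + s • α = x + i • α - D.t k' • α := by
      have h3 : (D.t k + i) • α = (D.t k' + s) • α := by rw [hs]
      rw [add_smul, add_smul] at h3
      rw [sub_add_eq_add_sub, sub_eq_sub_iff_add_eq_add]
      rw [add_assoc, add_comm (s • α), ← h3]; abel
    rw [this]; exact h1'
  · exact heq
  · exfalso
    obtain ⟨s, hs⟩ : ∃ s, D.t k' = D.t k + i + s := ⟨D.t k' - (D.t k + i), by omega⟩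
    apply h2' s (by omega) (by omega)
    have : x + i • α - D.t k' • α + s • α = x - D.t k • α := by
      rw [hs, add_smul, add_smul]; abel
    rw [this]; exact h1

theorem unique_k (hg : g ≤ M) {k k' : ℕ} {x : UnitAddCircle} (hk : D.piece k x ≠ 0)
    (hk' : D.piece k' x ≠ 0) : k = k' := by
  have := D.no_double (i := 0) hk (by simpa using hk') (by omega)
  exact (D.t_strictMono hg).injective (by omega)

theorem volume_W_le (hM : 2 * g ≤ M) (h2 : 2 ≤ M) : volume D.W ≤ ENNReal.ofReal (3 / M) := by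
  classical
  -- translates by i < M - g ... are pairwise disjoint
  set m := M - g with hm
  have hm1 : M ≤ 2 * m := by omega
  have hdisj : ∀ i < m, ∀ j < m, i < j →
      Disjoint ((fun x : UnitAddCircle => x + i • α) ⁻¹' D.W)
        ((fun x : UnitAddCircle => x + j • α) ⁻¹' D.W) := by
    intro i hi j hj hij
    rw [Set.disjoint_left]
    rintro x ⟨k, hk⟩ ⟨k', hk'⟩
    have e : x + j • α = x + i • α + (j - i) • α := by
      have : j • α = i • α + (j - i) • α := by rw [← add_smul]; congr 1; omega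
      rw [this, add_assoc]
    change D.piece k (x + i • α) ≠ 0 at hk
    change D.piece k' (x + j • α) ≠ 0 at hk'
    rw [e] at hk'
    have ht := D.no_double hk hk' (by omega)
    have hlt : D.t k < D.t k' := by omega
    have hkk : k < k' := (D.t_strictMono (by omega)).lt_iff_lt.1 hlt
    have h1 := D.t_lt k
    have h2 := D.t_ge k'
    have h3 : (k + 1) * M ≤ k' * M := Nat.mul_le_mul_right _ hkk
    have h4 : (k + 1) * M = k * M + M := by ring
    omega
  have hWm : MeasurableSet D.W := D.isOpen_W.measurableSet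
  have hsum : volume (⋃ i ∈ Finset.range m, (fun x : UnitAddCircle => x + i • α) ⁻¹' D.W) =
      ∑ i ∈ Finset.range m, volume ((fun x : UnitAddCircle => x + i • α) ⁻¹' D.W) := by
    refine measure_biUnion_finset ?_ ?_
    · intro i hi j hj hij
      simp only [Finset.coe_range, Set.mem_Iio] at hi hj
      rcases lt_or_gt_of_ne hij with h | h
      · exact hdisj i hi j hj h
      · exact (hdisj j hj i hi h).symm
    · intro i _
      exact (measurable_id.add_const _) hWm
  have hle : ∑ i ∈ Finset.range m, volume ((fun x : UnitAddCircle => x + i • α) ⁻¹' D.W) ≤ 1 := by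
    rw [← hsum]
    refine (measure_mono (Set.subset_univ _)).trans ?_
    rw [UnitAddCircle.measure_univ]
  simp only [measure_preimage_add_right, Finset.sum_const, Finset.card_range, nsmul_eq_mul] at hle
  have hmpos : 0 < m := by omega
  have hW : volume D.W ≤ 1 / (m : ENNReal) := by
    rw [ENNReal.le_div_iff_mul_le (by left; exact_mod_cast hmpos.ne') (by left; simp)]
    rw [mul_comm]; exact hle
  refine hW.trans ?_
  have : (1 : ENNReal) / m = ENNReal.ofReal (1 / m) := by
    rw [ENNReal.ofReal_div_of_pos (by exact_mod_cast hmpos)]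
    simp
  rw [this]
  refine ENNReal.ofReal_le_ofReal ?_
  rw [div_le_div_iff₀ (by exact_mod_cast hmpos) (by positivity)]
  have : (M : ℝ) ≤ 2 * m := by exact_mod_cast hm1
  have h0 : (0 : ℝ) ≤ m := by positivity
  linarith

/-! ### the weighted sum -/

/-- cost of the block: weights `wt k`, `1 ≤ k ≤ K`. -/
noncomputable def cost (wt : ℕ → ℝ) (K : ℕ) (x : UnitAddCircle) : ℝ :=
  ∑ k ∈ Icc 1 K, wt k * D.piece k x

theorem cost_cont (wt : ℕ → ℝ) (K : ℕ) : Continuous (D.cost wt K) := by
  unfold cost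
  have := D.piece_cont
  fun_prop

theorem cost_nonneg {wt : ℕ → ℝ} (hw : ∀ k, 0 ≤ wt k) (K : ℕ) (x : UnitAddCircle) :
    0 ≤ D.cost wt K x :=
  Finset.sum_nonneg fun k _ => mul_nonneg (hw k) (D.piece_nonneg k x)

theorem cost_le (hg : g ≤ M) {wt : ℕ → ℝ} {B : ℝ} (hB : 0 ≤ B)
    (hw' : ∀ k, wt k ≤ B) (K : ℕ) (x : UnitAddCircle) : D.cost wt K x ≤ B := by
  classical
  unfold cost
  by_cases h : ∃ k, D.piece k x ≠ 0
  · obtain ⟨k, hk⟩ := h
    have hz : ∀ k' ∈ Icc 1 K, k' ≠ k → wt k' * D.piece k' x = 0 := by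
      intro k' _ hne
      by_contra hne'
      exact hne (D.unique_k hg (right_ne_zero_of_mul hne') hk)
    by_cases hkK : k ∈ Icc 1 K
    · rw [Finset.sum_eq_single_of_mem k hkK hz]
      calc wt k * D.piece k x ≤ B * 1 := mul_le_mul (hw' k) (D.piece_le k x) (D.piece_nonneg k x) hB
        _ = B := mul_one B
    · rw [Finset.sum_eq_zero]
      · exact hB
      · intro k' hk'
        exact hz k' hk' (fun h => hkK (h ▸ hk'))
  · push Not at h
    rw [Finset.sum_eq_zero (fun k _ => by rw [h k, mul_zero])]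
    exact hB

theorem cost_eq_zero {wt : ℕ → ℝ} {K : ℕ} {x : UnitAddCircle} (hx : x ∉ D.W) :
    D.cost wt K x = 0 := by
  unfold cost
  refine Finset.sum_eq_zero fun k _ => ?_
  have : D.piece k x = 0 := by
    by_contra h
    exact hx ⟨k, h⟩
  rw [this, mul_zero]

/-- value of the pieces along a column over a point of `I'` -/
theorem piece_column {y : UnitAddCircle} (hy : y ∈ closedBall (0 : UnitAddCircle) D.r1) {L : ℕ}
    (hL : ∀ i, 1 ≤ i → i ≤ L → y + i • α ∉ ball (0 : UnitAddCircle) D.r3) {m : ℕ} (hm : m + M ≤ L)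
    (k : ℕ) : D.piece k (y + m • α) = if D.t k = m then 1 else 0 := by
  unfold piece
  rcases lt_trichotomy (D.t k) m with hlt | heq | hgt
  · rw [if_neg (by omega), D.bump_zero, zero_mul]
    have e : y + m • α - D.t k • α = y + (m - D.t k) • α := by
      have : m • α = D.t k • α + (m - D.t k) • α := by rw [← add_smul]; congr 1; omega
      rw [this]; abel
    rw [e]
    intro hmem
    exact hL _ (by omega) (by omega) (ball_subset_ball D.r23.le hmem)
  · rw [if_pos heq, heq]
    have e : y + m • α - m • α = y := by abel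
    rw [e, D.bump_one _ hy, one_mul]
    refine Finset.prod_eq_one fun i hi => ?_
    simp only [Finset.mem_Icc] at hi
    rw [D.chi_zero _ (hL i hi.1 (by omega))]
    ring
  · rw [if_neg (by omega)]
    rw [Finset.prod_eq_zero (i := D.t k - m) (by simp; omega), mul_zero]
    have e : y + m • α - D.t k • α + (D.t k - m) • α = y := by
      have : D.t k • α = m • α + (D.t k - m) • α := by rw [← add_smul]; congr 1; omega
      rw [this]; abel
    rw [e, D.chi_one _ (closedBall_subset_ball D.r12 hy)]
    ring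

/-- total cost of `n` steps starting at level `j` in a column over a point of `I'` -/
theorem sum_cost_column {y : UnitAddCircle} (hy : y ∈ closedBall (0 : UnitAddCircle) D.r1)
    {j n : ℕ} (hL : ∀ i, 1 ≤ i → i ≤ j + n + M → y + i • α ∉ ball (0 : UnitAddCircle) D.r3)
    (hM : 0 < M) (hj : g ≤ j % M) (hn : g ≤ (j + n) % M) (wt : ℕ → ℝ) {K : ℕ}
    (hK : (j + n) / M ≤ K) :
    ∑ i ∈ Finset.range n, D.cost wt K (y + (j + i) • α) = ∑ k ∈ Ioc (j / M) ((j + n) / M), wt k := by
  classical
  unfold cost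
  have h1 : ∀ i ∈ Finset.range n, ∀ k ∈ Icc 1 K, wt k * D.piece k (y + (j + i) • α) =
      if D.t k = j + i then wt k else 0 := by
    intro i hi k _
    simp only [Finset.mem_range] at hi
    rw [D.piece_column hy hL (m := j + i) (by omega)]
    split_ifs <;> simp
  rw [Finset.sum_congr rfl fun i hi => Finset.sum_congr rfl (h1 i hi), Finset.sum_comm]
  have h2 : ∀ k ∈ Icc 1 K, (∑ i ∈ Finset.range n, if D.t k = j + i then wt k else 0) =
      if k ∈ Ioc (j / M) ((j + n) / M) then wt k else 0 := by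
    intro k _
    have key : (∃ i < n, D.t k = j + i) ↔ k ∈ Ioc (j / M) ((j + n) / M) := by
      have ht1 := D.t_ge k
      have ht2 := D.t_lt k
      have hj' := Nat.div_add_mod j M
      have hn' := Nat.div_add_mod (j + n) M
      have hjm := Nat.mod_lt j hM
      have hnm := Nat.mod_lt (j + n) hM
      rw [Finset.mem_Ioc]
      constructor
      · rintro ⟨i, hi, hti⟩
        constructor
        · by_contra hcon
          push Not at hcon
          have : k * M ≤ j / M * M := Nat.mul_le_mul_right _ hcon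
          have e : M * (j / M) = j / M * M := mul_comm _ _
          omega
        · rw [Nat.le_div_iff_mul_le hM]
          omega
      · rintro ⟨h3, h4⟩
        have h5 : (j / M + 1) * M ≤ k * M := Nat.mul_le_mul_right _ h3
        have h6 : k * M ≤ (j + n) / M * M := Nat.mul_le_mul_right _ h4
        have e1 : (j / M + 1) * M = M * (j / M) + M := by ring
        have e2 : (j + n) / M * M = M * ((j + n) / M) := mul_comm _ _
        refine ⟨D.t k - j, by omega, by omega⟩
    by_cases h : ∃ i < n, D.t k = j + i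
    · rw [if_pos (key.1 h)]
      obtain ⟨i, hi, hti⟩ := h
      rw [Finset.sum_eq_single_of_mem i (by simpa using hi)]
      · rw [if_pos hti]
      · intro b _ hb
        rw [if_neg (by omega)]
    · rw [if_neg (fun h' => h (key.2 h'))]
      refine Finset.sum_eq_zero fun i hi => ?_
      rw [if_neg]
      intro hcon
      exact h ⟨i, by simpa using hi, hcon⟩
  rw [Finset.sum_congr rfl h2, Finset.sum_ite_mem]
  congr 1
  ext k
  simp only [Finset.mem_inter, Finset.mem_Icc, Finset.mem_Ioc]
  constructor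
  · rintro ⟨-, h⟩; exact h
  · rintro ⟨h3, h4⟩
    exact ⟨⟨Nat.succ_le_of_lt (lt_of_le_of_lt (Nat.zero_le _) h3), h4.trans hK⟩, h3, h4⟩

end BlockData

/-- telescoping of the weights -/
theorem sum_wt (c : ℝ) (ε : ℕ → ℝ) {a a' : ℕ} (h : a ≤ a') :
    ∑ k ∈ Ioc a a', c * (2 + ε (k - 1) - ε k) = c * (2 * ((a' : ℝ) - a) + ε a - ε a') := by
  induction a', h using Nat.le_induction with
  | base => simp
  | succ n hn ih =>
    rw [Finset.sum_Ioc_succ_top (by omega), ih, Nat.add_sub_cancel]
    push_cast; ring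

end Crest.Agent.R113.Circ
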