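import Crest.Agent.R113.Circ.Params

/-! Row 113, T16: the total cost function `u` and its continuity properties. -/

set_option autoImplicit false

namespace Crest.Agent.R113.Circ

open MeasureTheory Metric Finset Filter Topology

/-- all blocks chosen -/
structure Setup (θ : ℝ) where
  v : ℕ → ℝ
  g : ℕ → ℕ
  v_tendsto : Tendsto v atTop (𝓝 0)
  g_le : ∀ b, 4 ^ b * g b ≤ Mb b
  g_pos : ∀ b, 1 ≤ g b
  B : ∀ b, BlockPar θ b (v b) (g b)

theorem exists_setup {θ : ℝ} (hθ : Irrational θ) : Nonempty (Setup θ) := by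
  obtain ⟨v, g, h1, h2, h3, h4⟩ := exists_arcs hθ
  exact ⟨⟨v, g, h1, h2, h3, fun b => (exists_blockPar hθ b (v b) (g b) (h4 b)).some⟩⟩

theorem epsw_nonneg (w : ℕ → ℕ → Bool) (b a : ℕ) : 0 ≤ epsw w b a := by
  unfold epsw; split_ifs <;> norm_num

theorem epsw_le (w : ℕ → ℕ → Bool) (b a : ℕ) : epsw w b a ≤ 1 := by
  unfold epsw; split_ifs <;> norm_num

namespace Setup

variable {θ : ℝ} (S : Setup θ) (w : ℕ → ℕ → Bool)

/-- `Σ_{b' < b} 3 c_{b'}` -/
noncomputable def sumC : ℕ → ℝ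
  | 0 => 0
  | b + 1 => sumC b +
      3 * (4 ^ b * (Mb b : ℝ) ^ 20 * (1 + rb b * Mb b * (sumC b + ((S.B b).δ ^ 2)⁻¹)))

/-- the error `e_b` -/
noncomputable def e (b : ℕ) : ℝ := rb b * Mb b * (S.sumC b + ((S.B b).δ ^ 2)⁻¹)

/-- the cost `c_b` -/
noncomputable def c (b : ℕ) : ℝ := 4 ^ b * (Mb b : ℝ) ^ 20 * (1 + S.e b)

theorem sumC_succ (b : ℕ) : S.sumC (b + 1) = S.sumC b + 3 * S.c b := rfl

theorem sumC_nonneg (b : ℕ) : 0 ≤ S.sumC b := by
  induction b with
  | zero => exact le_rfl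
  | succ b ih =>
    rw [sumC_succ, c, e]
    positivity

theorem e_nonneg (b : ℕ) : 0 ≤ S.e b := by
  have := S.sumC_nonneg b
  unfold e; positivity

theorem c_nonneg (b : ℕ) : 0 ≤ S.c b := by
  have := S.e_nonneg b
  unfold c; positivity

theorem sumC_eq (b : ℕ) : S.sumC b = ∑ i ∈ range b, 3 * S.c i := by
  induction b with
  | zero => rfl
  | succ b ih => rw [sumC_succ, ih, Finset.sum_range_succ]

/-- weights -/
noncomputable def wt (b k : ℕ) : ℝ := S.c b * (2 + epsw w b (k - 1) - epsw w b k)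

theorem wt_nonneg (b k : ℕ) : 0 ≤ S.wt w b k := by
  have h1 := epsw_nonneg w b (k - 1)
  have h2 := epsw_le w b k
  exact mul_nonneg (S.c_nonneg b) (by linarith)

theorem wt_le (b k : ℕ) : S.wt w b k ≤ 3 * S.c b := by
  have h1 := epsw_le w b (k - 1)
  have h2 := epsw_nonneg w b k
  have h3 := S.c_nonneg b
  unfold wt
  nlinarith

/-- number of pieces used -/
def K (b : ℕ) : ℕ := (S.B b).H + rb b * Mb b + 1

/-- cost of block `b` -/
noncomputable def ub (b : ℕ) (x : UnitAddCircle) : ℝ := (S.B b).D.cost (S.wt w b) (S.K b) x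

theorem ub_nonneg (b : ℕ) (x : UnitAddCircle) : 0 ≤ S.ub w b x :=
  (S.B b).D.cost_nonneg (S.wt_nonneg w b) _ _

theorem g_le' (b : ℕ) : S.g b ≤ Mb b :=
  (Nat.le_mul_of_pos_left _ (by positivity)).trans (S.g_le b)

theorem ub_le (b : ℕ) (x : UnitAddCircle) : S.ub w b x ≤ 3 * S.c b :=
  (S.B b).D.cost_le (S.g_le' b) (by have := S.c_nonneg b; positivity) (S.wt_le w b) _ _

theorem ub_cont (b : ℕ) : Continuous (S.ub w b) := (S.B b).D.cost_cont _ _

theorem ub_eq_zero {b : ℕ} {x : UnitAddCircle} (hx : x ∉ (S.B b).D.W) : S.ub w b x = 0 :=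
  (S.B b).D.cost_eq_zero hx

theorem norm_le_of_mem_W {b : ℕ} {x : UnitAddCircle} (hx : x ∈ (S.B b).D.W) :
    ‖x‖ ≤ S.v b + 1 / ((b : ℝ) + 1) := by
  obtain ⟨k, hk⟩ := hx
  have h1 := ((S.B b).D.piece_ne_zero hk).1
  have h2 := (S.B b).t_mem k
  have h3 := (S.B b).r2_le
  simp only [mem_ball, dist_zero_right] at h1 h2
  have h4 : ‖x‖ ≤ ‖x - (S.B b).D.t k • (θ : UnitAddCircle)‖ + ‖(S.B b).D.t k • (θ : UnitAddCircle)‖ := by
    calc ‖x‖ = ‖(x - (S.B b).D.t k • (θ : UnitAddCircle)) + (S.B b).D.t k • (θ : UnitAddCircle)‖ := by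
          rw [sub_add_cancel]
      _ ≤ _ := norm_add_le _ _
  linarith

theorem eventually_not_mem_W {ρ : ℝ} (hρ : 0 < ρ) :
    ∃ N : ℕ, ∀ b, N ≤ b → ∀ x : UnitAddCircle, ρ < ‖x‖ → x ∉ (S.B b).D.W := by
  have h1 : Tendsto (fun b : ℕ => S.v b + 1 / ((b : ℝ) + 1)) atTop (𝓝 (0 + 0)) :=
    S.v_tendsto.add tendsto_one_div_add_atTop_nhds_zero_nat
  rw [add_zero] at h1
  obtain ⟨N, hN⟩ := eventually_atTop.1 (h1.eventually (gt_mem_nhds hρ))
  refine ⟨N, fun b hb x hx hmem => ?_⟩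
  have := S.norm_le_of_mem_W hmem
  have := hN b hb
  linarith

/-- the total cost -/
noncomputable def u (x : UnitAddCircle) : ℝ := (‖x‖ ^ 2)⁻¹ + ∑' b, S.ub w b x

theorem u_eq {N : ℕ} {x : UnitAddCircle} (hN : ∀ b, N ≤ b → x ∉ (S.B b).D.W) :
    S.u w x = (‖x‖ ^ 2)⁻¹ + ∑ b ∈ range N, S.ub w b x := by
  unfold u
  rw [tsum_eq_sum]
  intro b hb
  exact S.ub_eq_zero w (hN b (by simpa using hb))

theorem tsum_nonneg' (x : UnitAddCircle) : 0 ≤ ∑' b, S.ub w b x := tsum_nonneg fun b => S.ub_nonneg w b x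

theorem u_nonneg (x : UnitAddCircle) : 0 ≤ S.u w x :=
  add_nonneg (by positivity) (S.tsum_nonneg' w x)

theorem u_ge (x : UnitAddCircle) : (‖x‖ ^ 2)⁻¹ ≤ S.u w x :=
  le_add_of_nonneg_right (S.tsum_nonneg' w x)

theorem u_continuousAt {x : UnitAddCircle} (hx : x ≠ 0) : ContinuousAt (S.u w) x := by
  have hpos : 0 < ‖x‖ := norm_pos_iff.2 hx
  obtain ⟨N, hN⟩ := S.eventually_not_mem_W (ρ := ‖x‖ / 2) (by positivity)
  have hev : ∀ᶠ y in 𝓝 x, ‖x‖ / 2 < ‖y‖ := by
    have : ContinuousAt (fun y : UnitAddCircle => ‖y‖) x := continuous_norm.continuousAt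
    exact this.eventually (lt_mem_nhds (by linarith))
  have heq : S.u w =ᶠ[𝓝 x] fun y => (‖y‖ ^ 2)⁻¹ + ∑ b ∈ range N, S.ub w b y := by
    filter_upwards [hev] with y hy
    exact S.u_eq w (fun b hb => hN b hb y hy)
  rw [continuousAt_congr heq]
  have h1 : ContinuousAt (fun y : UnitAddCircle => (‖y‖ ^ 2)⁻¹) x :=
    ((continuous_norm.pow 2).continuousAt).inv₀ (pow_ne_zero 2 hpos.ne')
  refine h1.add ?_
  have : Continuous fun y => ∑ b ∈ range N, S.ub w b y :=
    continuous_finsetSum _ fun b _ => S.ub_cont w b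
  exact this.continuousAt

theorem u_measurable : Measurable (S.u w) := by
  refine measurable_of_continuousOn_compl_singleton 0 ?_
  intro x hx
  exact (S.u_continuousAt w hx).continuousWithinAt

theorem f_continuous :
    Continuous fun x : UnitAddCircle => if x = 0 then (0 : ℝ) else Real.exp (-S.u w x) := by
  rw [continuous_iff_continuousAt]
  intro x
  by_cases hx : x = 0
  · subst hx
    have hbound : ∀ y : UnitAddCircle, ‖(if y = 0 then (0 : ℝ) else Real.exp (-S.u w y))‖ ≤ ‖y‖ ^ 2 := by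
      intro y
      split_ifs with hy
      · simp
      · have hpos : 0 < ‖y‖ := norm_pos_iff.2 hy
        rw [Real.norm_of_nonneg (Real.exp_pos _).le]
        have h1 : (‖y‖ ^ 2)⁻¹ ≤ S.u w y := S.u_ge w y
        have h2 : (‖y‖ ^ 2)⁻¹ ≤ Real.exp (S.u w y) :=
          h1.trans ((by linarith [Real.add_one_le_exp (S.u w y)] : S.u w y ≤ _))
        rw [Real.exp_neg]
        exact inv_le_of_inv_le₀ (by positivity) h2
    have h0 : Tendsto (fun y : UnitAddCircle => ‖y‖ ^ 2) (𝓝 0) (𝓝 0) := by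
      have : Continuous fun y : UnitAddCircle => ‖y‖ ^ 2 := by fun_prop
      simpa using this.tendsto 0
    unfold ContinuousAt
    simp only [if_true]
    exact squeeze_zero_norm hbound h0
  · have hne : ∀ᶠ y in 𝓝 x, y ≠ 0 := isOpen_ne.mem_nhds hx
    have heq : (fun y : UnitAddCircle => if y = 0 then (0 : ℝ) else Real.exp (-S.u w y)) =ᶠ[𝓝 x]
        fun y => Real.exp (-S.u w y) := by
      filter_upwards [hne] with y hy
      rw [if_neg hy]
    rw [continuousAt_congr heq]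
    exact Real.continuous_exp.continuousAt.comp (S.u_continuousAt w hx).neg

theorem lintegral_u : ∫⁻ x : UnitAddCircle, ENNReal.ofReal (S.u w x) = ⊤ := by
  refine ENNReal.eq_top_of_forall_nnreal_le fun r => ?_
  obtain ⟨n, hn⟩ := exists_nat_ge (r : ℝ)
  have h0 : volume ({0} : Set UnitAddCircle) = 0 := by
    have := AddCircle.volume_closedBall (T := (1 : ℝ)) (x := (0 : UnitAddCircle)) 0
    rw [closedBall_zero, mul_zero, min_eq_right zero_le_one, ENNReal.ofReal_zero] at this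
    exact this
  have hmark := mul_meas_ge_le_lintegral (μ := (volume : Measure UnitAddCircle))
    (f := fun x => ENNReal.ofReal (S.u w x)) (S.u_measurable w).ennreal_ofReal
    (ENNReal.ofReal (((n : ℝ) + 2) ^ 2))
  refine le_trans ?_ hmark
  have hsub : closedBall (0 : UnitAddCircle) (1 / ((n : ℝ) + 2)) \ {0} ⊆
      {x | ENNReal.ofReal (((n : ℝ) + 2) ^ 2) ≤ ENNReal.ofReal (S.u w x)} := by
    rintro x ⟨hx1, hx2⟩
    have hx0 : x ≠ 0 := hx2
    have hpos : 0 < ‖x‖ := norm_pos_iff.2 hx0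
    simp only [mem_closedBall, dist_zero_right] at hx1
    refine ENNReal.ofReal_le_ofReal ((?_ : _ ≤ _).trans (S.u_ge w x))
    rw [le_inv_comm₀ (by positivity) (by positivity)]
    calc ‖x‖ ^ 2 ≤ (1 / ((n : ℝ) + 2)) ^ 2 := pow_le_pow_left₀ hpos.le hx1 2
      _ = _ := by rw [one_div, inv_pow]
  have hvol : ENNReal.ofReal (2 * (1 / ((n : ℝ) + 2))) ≤
      volume {x | ENNReal.ofReal (((n : ℝ) + 2) ^ 2) ≤ ENNReal.ofReal (S.u w x)} := by
    refine le_trans ?_ (measure_mono hsub)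
    rw [measure_sdiff_null h0, AddCircle.volume_closedBall, min_eq_right]
    rw [mul_one_div, div_le_one (by positivity)]
    have : (0 : ℝ) ≤ n := by positivity
    linarith
  refine le_trans ?_ (mul_le_mul_right hvol _)
  rw [← ENNReal.ofReal_mul (by positivity)]
  rw [← ENNReal.ofReal_coe_nnreal]
  refine ENNReal.ofReal_le_ofReal ?_
  have e : ((n : ℝ) + 2) ^ 2 * (2 * (1 / ((n : ℝ) + 2))) = 2 * (n + 2) := by
    field_simp
  rw [e]
  have : (0 : ℝ) ≤ n := by positivity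
  linarith

end Setup

end Crest.Agent.R113.Circ
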