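import Mathlib

/-! Row 113, T16: hitting gaps of the irrational rotation, and the level (time since last visit). -/

set_option autoImplicit false

namespace Crest.Agent.R113.Circ

open MeasureTheory Metric

/-- every orbit segment of length `G` meets the ball of radius `r` around `0`. -/
theorem exists_gap {θ : ℝ} (hθ : Irrational θ) {r : ℝ} (hr : 0 < r) :
    ∃ G : ℕ, 1 ≤ G ∧ ∀ x : UnitAddCircle, ∃ j < G, x + j • (θ : UnitAddCircle) ∈ ball (0 : UnitAddCircle) r := by
  have hd : DenseRange (fun n : ℤ => n • (θ : UnitAddCircle)) := by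
    have := (AddCircle.denseRange_zsmul_coe_iff (a := θ) (p := 1)).2 (by simpa using hθ)
    exact this
  have hcov : (Set.univ : Set UnitAddCircle) ⊆
      ⋃ n : ℤ, (fun x : UnitAddCircle => x + n • (θ : UnitAddCircle)) ⁻¹' ball 0 r := by
    intro x _
    obtain ⟨n, hn⟩ := hd.exists_mem_open (isOpen_ball (x := -x) (ε := r)) ⟨-x, mem_ball_self hr⟩
    refine Set.mem_iUnion.2 ⟨n, ?_⟩
    simp only [Set.mem_preimage, mem_ball, dist_eq_norm] at hn ⊢
    have : x + n • (θ : UnitAddCircle) - 0 = n • (θ : UnitAddCircle) - -x := by abel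
    rw [this]; exact hn
  obtain ⟨F, hF⟩ := isCompact_univ.elim_finite_subcover _
    (fun n : ℤ => isOpen_ball.preimage (by fun_prop)) hcov
  -- a bound for the elements of F
  obtain ⟨N, hN⟩ : ∃ N : ℕ, ∀ n ∈ F, n.natAbs ≤ N :=
    ⟨F.sup Int.natAbs, fun n hn => Finset.le_sup (f := Int.natAbs) hn⟩
  refine ⟨2 * N + 1, by omega, fun x => ?_⟩
  have := hF (Set.mem_univ (x + N • (θ : UnitAddCircle)))
  simp only [Set.mem_iUnion, Set.mem_preimage] at this
  obtain ⟨n, hnF, hn⟩ := this
  have hb := hN n hnF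
  have hnonneg : 0 ≤ (N : ℤ) + n := by omega
  obtain ⟨j, hj⟩ := Int.eq_ofNat_of_zero_le hnonneg
  refine ⟨j, by omega, ?_⟩
  have : x + j • (θ : UnitAddCircle) = x + N • (θ : UnitAddCircle) + n • (θ : UnitAddCircle) := by
    rw [← natCast_zsmul (θ : UnitAddCircle) j, ← hj, add_zsmul, natCast_zsmul, add_assoc]
  rw [this]; exact hn

/-- backward version. -/
theorem exists_gap_back {θ : ℝ} (hθ : Irrational θ) {r : ℝ} (hr : 0 < r) :
    ∃ G : ℕ, 1 ≤ G ∧ ∀ x : UnitAddCircle, ∃ j < G, x - j • (θ : UnitAddCircle) ∈ ball (0 : UnitAddCircle) r := by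
  obtain ⟨G, hG1, hG⟩ := exists_gap hθ hr
  refine ⟨G, hG1, fun x => ?_⟩
  obtain ⟨j, hj, hx⟩ := hG (-x)
  refine ⟨j, hj, ?_⟩
  simp only [mem_ball, dist_eq_norm, sub_zero] at hx ⊢
  rw [← norm_neg]
  have : -(x - j • (θ : UnitAddCircle)) = -x + j • (θ : UnitAddCircle) := by abel
  rw [this]; exact hx

/-! ### the level function -/

section Lev

variable (α : UnitAddCircle) (J : Set UnitAddCircle)

/-- time since the last visit to `J` along the orbit `x, x - α, ...` -/
noncomputable def lev (x : UnitAddCircle) : ℕ := sInf {j : ℕ | x - j • α ∈ J}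

variable {α J}

theorem lev_spec {x : UnitAddCircle} (h : ∃ j : ℕ, x - j • α ∈ J) : x - lev α J x • α ∈ J :=
  Nat.sInf_mem h

theorem not_mem_of_lt_lev {x : UnitAddCircle} {j : ℕ} (h : j < lev α J x) : x - j • α ∉ J :=
  Nat.notMem_of_lt_sInf h

theorem lev_le {x : UnitAddCircle} {j : ℕ} (h : x - j • α ∈ J) : lev α J x ≤ j :=
  Nat.sInf_le h

theorem lev_eq {x : UnitAddCircle} {j : ℕ} (h : x - j • α ∈ J) (h' : ∀ i < j, x - i • α ∉ J) :
    lev α J x = j := by
  refine le_antisymm (lev_le h) ?_
  by_contra hlt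
  push Not at hlt
  exact h' _ hlt (lev_spec ⟨j, h⟩)

theorem lev_eq_zero_iff {x : UnitAddCircle} (h : ∃ j : ℕ, x - j • α ∈ J) :
    lev α J x = 0 ↔ x ∈ J := by
  constructor
  · intro h0
    have := lev_spec h
    rw [h0] at this
    simpa using this
  · intro hx
    exact lev_eq (by simpa using hx) (by simp)

theorem lev_add_of_not_mem {x : UnitAddCircle} (h : ∃ j : ℕ, x - j • α ∈ J) (hx : x + α ∉ J) :
    lev α J (x + α) = lev α J x + 1 := by
  refine lev_eq ?_ ?_
  · have := lev_spec h
    have e : x + α - (lev α J x + 1) • α = x - lev α J x • α := by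
      rw [add_smul, one_smul]; abel
    rw [e]; exact this
  · intro i hi
    rcases Nat.eq_zero_or_pos i with rfl | hpos
    · simpa using hx
    · obtain ⟨i', rfl⟩ : ∃ i', i = i' + 1 := ⟨i - 1, by omega⟩
      have e : x + α - (i' + 1) • α = x - i' • α := by
        rw [add_smul, one_smul]; abel
      rw [e]; exact not_mem_of_lt_lev (by omega)

theorem lev_add {x : UnitAddCircle} (h : ∃ j : ℕ, x - j • α ∈ J) :
    lev α J (x + α) = lev α J x + 1 ∨ lev α J (x + α) = 0 := by
  by_cases hx : x + α ∈ J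
  · right
    exact lev_eq (by simpa using hx) (by simp)
  · exact Or.inl (lev_add_of_not_mem h hx)

theorem lev_add_nat (hJ : ∀ x : UnitAddCircle, ∃ j : ℕ, x - j • α ∈ J) {x : UnitAddCircle} :
    ∀ n : ℕ, (∀ i : ℕ, 1 ≤ i → i ≤ n → x + i • α ∉ J) → lev α J (x + n • α) = lev α J x + n := by
  intro n
  induction n with
  | zero => intro _; simp
  | succ n ih =>
    intro h
    have h1 := ih (fun i hi hin => h i hi (by omega))
    have h2 : x + n • α + α ∉ J := by
      have := h (n + 1) (by omega) le_rfl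
      rwa [add_smul, one_smul, ← add_assoc] at this
    have h3 := lev_add_of_not_mem (hJ _) h2
    have e : x + (n + 1) • α = x + n • α + α := by rw [add_smul, one_smul, add_assoc]
    rw [e, h3, h1]; omega

theorem measurable_lev (hJ : ∀ x : UnitAddCircle, ∃ j : ℕ, x - j • α ∈ J) (hm : MeasurableSet J) :
    Measurable (lev α J) := by
  refine measurable_to_nat fun x => ?_
  have : lev α J ⁻¹' {lev α J x} =
      {y | y - (lev α J x) • α ∈ J} ∩ ⋂ i ∈ Finset.range (lev α J x), {y | y - i • α ∉ J} := by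
    ext y
    simp only [Set.mem_preimage, Set.mem_singleton_iff, Set.mem_inter_iff, Set.mem_ofPred_eq,
      Set.mem_iInter, Finset.mem_range]
    constructor
    · intro h
      rw [← h]
      exact ⟨lev_spec (hJ y), fun i hi => not_mem_of_lt_lev hi⟩
    · rintro ⟨h1, h2⟩
      exact lev_eq h1 h2
  rw [this]
  refine MeasurableSet.inter ?_ (Finset.measurableSet_biInter _ fun i _ => ?_)
  · exact (measurable_id.sub_const _) hm
  · exact ((measurable_id.sub_const _) hm).compl

end Lev

/-- translates: `∃ s ∈ F, x + s α ∈ A` has measure at most `|F| · vol A`. -/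
theorem volume_exists_translate_le (α : UnitAddCircle) (F : Finset ℤ) (A : Set UnitAddCircle) :
    volume {x : UnitAddCircle | ∃ s ∈ F, x + s • α ∈ A} ≤ F.card * volume A := by
  have : {x : UnitAddCircle | ∃ s ∈ F, x + s • α ∈ A} =
      ⋃ s ∈ F, (fun x : UnitAddCircle => x + s • α) ⁻¹' A := by
    ext x; simp
  rw [this]
  refine (measure_biUnion_finset_le _ _).trans ?_
  have : ∀ s ∈ F, volume ((fun x : UnitAddCircle => x + s • α) ⁻¹' A) ≤ volume A := by
    intro s _
    rw [measure_preimage_add_right]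
  refine (Finset.sum_le_sum this).trans ?_
  simp

theorem volume_ball_le (r : ℝ) : volume (ball (0 : UnitAddCircle) r) ≤ ENNReal.ofReal (2 * r) := by
  refine (measure_mono ball_subset_closedBall).trans ?_
  rw [AddCircle.volume_closedBall]
  exact ENNReal.ofReal_le_ofReal (min_le_right _ _)

theorem volume_annulus_le {r s : ℝ} (hr : 0 ≤ r) (hrs : r ≤ s) (hs : s ≤ 1 / 2) :
    volume (ball (0 : UnitAddCircle) s \ closedBall 0 r) ≤ ENNReal.ofReal (2 * (s - r)) := by
  have h1 : volume (closedBall (0 : UnitAddCircle) s \ closedBall 0 r) =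
      volume (closedBall (0 : UnitAddCircle) s) - volume (closedBall (0 : UnitAddCircle) r) := by
    refine measure_sdiff (closedBall_subset_closedBall hrs) isClosed_closedBall.nullMeasurableSet
      (measure_ne_top _ _)
  refine (measure_mono (Set.sdiff_subset_sdiff_left ball_subset_closedBall)).trans ?_
  rw [h1, AddCircle.volume_closedBall, AddCircle.volume_closedBall, min_eq_right (by linarith),
    min_eq_right (by linarith), ← ENNReal.ofReal_sub _ (by linarith)]
  exact ENNReal.ofReal_le_ofReal (by linarith)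

end Crest.Agent.R113.Circ
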