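import Crest.Agent.R113.Circ.Cost

/-! Row 113, T16: the design theorem on the circle. -/

set_option autoImplicit false

namespace Crest.Agent.R113.Circ

open MeasureTheory Metric Finset Filter Topology

attribute [local irreducible] Mb rb Pib

namespace Setup

variable {θ : ℝ} (S : Setup θ) (w : ℕ → ℕ → Bool)

/-- the outer arc of block `b` -/
def J (b : ℕ) : Set UnitAddCircle := ball (0 : UnitAddCircle) (S.B b).D.r3

/-- level of block `b` -/
noncomputable def lv (b : ℕ) (x : UnitAddCircle) : ℕ := lev (θ : UnitAddCircle) (S.J b) x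

theorem r1_lt_r3 (b : ℕ) : (S.B b).D.r1 < (S.B b).D.r3 := (S.B b).D.r12.trans (S.B b).D.r23

theorem r3_pos (b : ℕ) : 0 < (S.B b).D.r3 := (S.B b).r1_pos.trans (S.r1_lt_r3 b)

theorem hJ (b : ℕ) (x : UnitAddCircle) : ∃ j : ℕ, x - j • (θ : UnitAddCircle) ∈ S.J b := by
  obtain ⟨j, -, hj⟩ := (S.B b).gap x
  exact ⟨j, ball_subset_ball (S.r1_lt_r3 b).le hj⟩

theorem lv_lt (b : ℕ) (x : UnitAddCircle) : S.lv b x < (S.B b).H := by
  obtain ⟨j, hj1, hj⟩ := (S.B b).gap x
  exact (lev_le (ball_subset_ball (S.r1_lt_r3 b).le hj)).trans_lt hj1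

theorem measurableSet_J (b : ℕ) : MeasurableSet (S.J b) := measurableSet_ball

theorem measurable_lv (b : ℕ) : Measurable (S.lv b) :=
  measurable_lev (S.hJ b) (S.measurableSet_J b)

theorem volume_J_le (b : ℕ) : volume (S.J b) ≤
    ENNReal.ofReal (2 * (1 / (4 ^ b * (1000 * ((Pib b : ℝ) * Mb b))))) :=
  (volume_ball_le _).trans (ENNReal.ofReal_le_ofReal (by linarith [(S.B b).r3_le]))

/-- long horizon -/
def LL (b : ℕ) : ℕ := 2 * (Pib b * Mb b)

def bad1 (b : ℕ) : Set UnitAddCircle := {x | S.lv b x < LL b}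
def bad2 (b : ℕ) : Set UnitAddCircle :=
  {x | ∃ i : ℕ, i ≤ LL b ∧ x + i • (θ : UnitAddCircle) ∈ S.J b}
def bad3 (b : ℕ) : Set UnitAddCircle :=
  {x | x - S.lv b x • (θ : UnitAddCircle) ∉ closedBall (0 : UnitAddCircle) (S.B b).D.r1}
/-- higher blocks -/
def hi (b : ℕ) : Set UnitAddCircle := ⋃ j : ℕ, (S.B (b + 1 + j)).D.W
def bad4 (b : ℕ) : Set UnitAddCircle :=
  {x | ∃ i : ℕ, i ≤ rb b * Mb b ∧ x + i • (θ : UnitAddCircle) ∈ S.hi b}
def bad5 (b : ℕ) : Set UnitAddCircle :=
  {x | ∃ i : ℕ, i ≤ rb b * Mb b ∧ x + i • (θ : UnitAddCircle) ∈ ball (0 : UnitAddCircle) (S.B b).δ}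

def Bad (b : ℕ) : Set UnitAddCircle := S.bad1 b ∪ S.bad2 b ∪ S.bad3 b ∪ S.bad4 b ∪ S.bad5 b

theorem meas_exists {A : Set UnitAddCircle} (hA : MeasurableSet A) (N : ℕ) (α : UnitAddCircle) :
    MeasurableSet {x : UnitAddCircle | ∃ i : ℕ, i ≤ N ∧ x + i • α ∈ A} := by
  have : {x : UnitAddCircle | ∃ i : ℕ, i ≤ N ∧ x + i • α ∈ A} =
      ⋃ i ∈ Finset.range (N + 1), (fun x : UnitAddCircle => x + i • α) ⁻¹' A := by
    ext x; simp
  rw [this]
  exact Finset.measurableSet_biUnion _ fun i _ => (measurable_id.add_const _) hA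

theorem measurableSet_hi (b : ℕ) : MeasurableSet (S.hi b) :=
  MeasurableSet.iUnion fun j => (S.B (b + 1 + j)).D.isOpen_W.measurableSet

theorem measurableSet_bad3 (b : ℕ) : MeasurableSet (S.bad3 b) := by
  have h0 : Measurable fun x : UnitAddCircle => S.lv b x • (θ : UnitAddCircle) := by
    have h01 : Measurable (fun n : ℕ => n • (θ : UnitAddCircle)) := measurable_of_countable _
    have h02 := S.measurable_lv b
    exact h01.comp h02
  have h1 : Measurable fun x : UnitAddCircle => x - S.lv b x • (θ : UnitAddCircle) :=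
    Measurable.sub measurable_id h0
  have h2 : MeasurableSet (closedBall (0 : UnitAddCircle) (S.B b).D.r1) :=
    isClosed_closedBall.measurableSet
  exact (h1 h2).compl

theorem measurableSet_Bad (b : ℕ) : MeasurableSet (S.Bad b) := by
  refine ((((?_ : MeasurableSet (S.bad1 b)).union ?_).union ?_).union ?_).union ?_
  · exact (S.measurable_lv b) (measurableSet_Iio (a := LL b))
  · exact meas_exists (S.measurableSet_J b) _ _
  · exact S.measurableSet_bad3 b
  · exact meas_exists (S.measurableSet_hi b) _ _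
  · exact meas_exists measurableSet_ball _ _

/-! ### D1, D2 -/

theorem D2 (b : ℕ) {x : UnitAddCircle} (hx : x ∉ S.Bad b) :
    LL b ≤ S.lv b x ∧ ∀ i : ℕ, i ≤ LL b → S.lv b (x + i • (θ : UnitAddCircle)) = S.lv b x + i := by
  simp only [Bad, Set.mem_union, not_or] at hx
  obtain ⟨⟨⟨⟨h1, h2⟩, h3⟩, h4⟩, h5⟩ := hx
  refine ⟨by simpa [bad1] using h1, fun i hi => ?_⟩
  refine lev_add_nat (S.hJ b) i fun i' _ hi' hmem => h2 ⟨i', by omega, hmem⟩

/-! ### measure of the bad set -/

theorem volume_hi_le (b : ℕ) : volume (S.hi b) ≤ ENNReal.ofReal (6 / Mb (b + 1)) := by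
  refine (measure_iUnion_le _).trans ?_
  have hM1 : (1 : ℝ) ≤ Mb (b + 1) := by exact_mod_cast one_le_Mb (b + 1)
  have h1 : ∀ j : ℕ, volume (S.B (b + 1 + j)).D.W ≤ ENNReal.ofReal (3 / Mb (b + 1) * (1 / 2) ^ j) := by
    intro j
    have hb : 1 ≤ b + 1 + j := by omega
    have hg : 2 * S.g (b + 1 + j) ≤ Mb (b + 1 + j) := by
      have h4 := S.g_le (b + 1 + j)
      have h5 : 2 ≤ 4 ^ (b + 1 + j) := by
        calc 2 ≤ 4 ^ 1 := by norm_num
          _ ≤ 4 ^ (b + 1 + j) := Nat.pow_le_pow_right (by norm_num) hb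
      exact (Nat.mul_le_mul_right _ h5).trans h4
    refine ((S.B (b + 1 + j)).D.volume_W_le hg (two_le_Mb hb)).trans (ENNReal.ofReal_le_ofReal ?_)
    have h6 : (Mb (b + 1) : ℝ) * 2 ^ j ≤ Mb (b + 1 + j) := by exact_mod_cast Mb_growth b j
    calc 3 / (Mb (b + 1 + j) : ℝ) ≤ 3 / ((Mb (b + 1) : ℝ) * 2 ^ j) :=
          div_le_div_of_nonneg_left (by norm_num) (by positivity) h6
      _ = _ := by rw [div_mul_eq_div_div, one_div, inv_pow, div_eq_mul_inv (3 / _)]
  refine (ENNReal.tsum_le_tsum h1).trans ?_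
  rw [← ENNReal.ofReal_tsum_of_nonneg (fun j => by positivity)
    (summable_geometric_two.mul_left _), tsum_mul_left, tsum_geometric_two]
  exact ENNReal.ofReal_le_ofReal (by rw [div_mul_eq_mul_div]; norm_num)

theorem bound_translate (α : UnitAddCircle) {F : Finset ℤ} {A : Set UnitAddCircle} {n : ℝ} {s q : ℝ}
    (hF : (F.card : ℝ) ≤ n) (hA : volume A ≤ ENNReal.ofReal s) (hs : 0 ≤ s) (h : n * s ≤ q) :
    volume {x : UnitAddCircle | ∃ i ∈ F, x + i • α ∈ A} ≤ ENNReal.ofReal q := by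
  refine (volume_exists_translate_le α F A).trans ?_
  calc (F.card : ENNReal) * volume A ≤ ENNReal.ofReal F.card * ENNReal.ofReal s := by
        rw [ENNReal.ofReal_natCast]
        exact mul_le_mul_right hA _
    _ = ENNReal.ofReal (F.card * s) := by rw [ENNReal.ofReal_mul (by positivity)]
    _ ≤ _ := ENNReal.ofReal_le_ofReal ((mul_le_mul_of_nonneg_right hF hs).trans h)

theorem add_zsmul_nsmul (α x : UnitAddCircle) (i : ℤ) (j : ℕ) :
    x + i • α + j • α = x + (i + (j : ℤ)) • α := by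
  rw [add_zsmul, natCast_zsmul, add_assoc]

theorem add_zsmul_sub_nsmul (α x : UnitAddCircle) (i : ℤ) (j : ℕ) :
    x + i • α - j • α = x + (i - (j : ℤ)) • α := by
  rw [sub_zsmul, natCast_zsmul]; abel

theorem volume_collar_le (b : ℕ) : volume (S.bad3 b) ≤
    ENNReal.ofReal (((S.B b).H + 1) * (2 * ((S.B b).D.r3 - (S.B b).D.r1))) := by
  have hsub : S.bad3 b ⊆ {x | ∃ s ∈ Finset.Icc (-((S.B b).H : ℤ)) 0, x + s • (θ : UnitAddCircle) ∈
      ball (0 : UnitAddCircle) (S.B b).D.r3 \ closedBall 0 (S.B b).D.r1} := by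
    intro x hx
    have h1 := lev_spec (S.hJ b x)
    have h2 := S.lv_lt b x
    refine ⟨-(S.lv b x : ℤ), ?_, ?_⟩
    · simp only [Finset.mem_Icc]; omega
    · rw [neg_zsmul, natCast_zsmul, ← sub_eq_add_neg]
      exact ⟨h1, hx⟩
  refine (measure_mono hsub).trans ?_
  refine bound_translate _ (n := (S.B b).H + 1) ?_
    (volume_annulus_le (S.B b).r1_pos.le (S.r1_lt_r3 b).le (S.B b).r3_half)
    (by linarith [S.r1_lt_r3 b]) le_rfl
  rw [Int.card_Icc]
  have : (0 + 1 - -((S.B b).H : ℤ)).toNat = (S.B b).H + 1 := by omega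
  rw [this]; push_cast; exact le_rfl

theorem D2vol (b : ℕ) : volume {x : UnitAddCircle | ∃ i : ℤ, |i| ≤ 2 * (Mb b : ℤ) ∧
    x + i • (θ : UnitAddCircle) ∈ S.Bad b} ≤ ENNReal.ofReal ((1 / 4 : ℝ) ^ b) := by
  set α : UnitAddCircle := (θ : UnitAddCircle) with hα
  have hM : 1 ≤ Mb b := one_le_Mb b
  have hP : 1 ≤ Pib b := one_le_Pib b
  have hPM : Mb b ≤ Pib b * Mb b := Nat.le_mul_of_pos_left _ hP
  have hMr : (1 : ℝ) ≤ Mb b := by exact_mod_cast hM
  have hPMr : (Mb b : ℝ) ≤ Pib b * Mb b := by exact_mod_cast hPM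
  have hq : (0 : ℝ) < (1 / 4 : ℝ) ^ b := by positivity
  set q := (1 / 4 : ℝ) ^ b / 8 with hqdef
  -- the four unions
  set F1 : Finset ℤ := Finset.Icc (-(4 * (Pib b * Mb b : ℕ) : ℤ)) (4 * (Pib b * Mb b : ℕ)) with hF1
  set F2 : Finset ℤ := Finset.Icc (-(2 * (Mb b : ℤ))) (2 * (Mb b : ℤ)) with hF2
  set F3 : Finset ℤ := Finset.Icc (-(2 * (Mb b : ℤ))) (2 * (Mb b : ℤ) + (rb b * Mb b : ℕ)) with hF3
  have hsub : {x : UnitAddCircle | ∃ i : ℤ, |i| ≤ 2 * (Mb b : ℤ) ∧ x + i • α ∈ S.Bad b} ⊆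
      ({x | ∃ i ∈ F1, x + i • α ∈ S.J b} ∪ {x | ∃ i ∈ F2, x + i • α ∈ S.bad3 b}) ∪
      ({x | ∃ i ∈ F3, x + i • α ∈ S.hi b} ∪
        {x | ∃ i ∈ F3, x + i • α ∈ ball (0 : UnitAddCircle) (S.B b).δ}) := by
    rintro x ⟨i, hi, hx⟩
    rw [abs_le] at hi
    rcases hx with (((hx | hx) | hx) | hx) | hx
    · left; left
      have h1 := lev_spec (S.hJ b (x + i • α))
      have h2 : S.lv b (x + i • α) < LL b := hx
      refine ⟨i - (S.lv b (x + i • α) : ℤ), ?_, ?_⟩
      · simp only [hF1, Finset.mem_Icc]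
        unfold LL at h2
        push_cast at *
        constructor <;> omega
      · rw [← add_zsmul_sub_nsmul]; exact h1
    · left; left
      obtain ⟨j, hj, hx⟩ := hx
      refine ⟨i + (j : ℤ), ?_, ?_⟩
      · simp only [hF1, Finset.mem_Icc]
        unfold LL at hj
        push_cast at *
        constructor <;> omega
      · rw [← add_zsmul_nsmul]; exact hx
    · left; right
      refine ⟨i, ?_, hx⟩
      simp only [hF2, Finset.mem_Icc]; omega
    · right; left
      obtain ⟨j, hj, hx⟩ := hx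
      refine ⟨i + (j : ℤ), ?_, ?_⟩
      · simp only [hF3, Finset.mem_Icc]
        push_cast at *
        constructor <;> omega
      · rw [← add_zsmul_nsmul]; exact hx
    · right; right
      obtain ⟨j, hj, hx⟩ := hx
      refine ⟨i + (j : ℤ), ?_, ?_⟩
      · simp only [hF3, Finset.mem_Icc]
        push_cast at *
        constructor <;> omega
      · rw [← add_zsmul_nsmul]; exact hx
  have c1 : volume {x : UnitAddCircle | ∃ i ∈ F1, x + i • α ∈ S.J b} ≤ ENNReal.ofReal q := by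
    refine bound_translate α (n := 9 * (Pib b * Mb b)) ?_ (S.volume_J_le b) (by positivity) ?_
    · have : F1.card = 8 * (Pib b * Mb b) + 1 := by
        rw [hF1, Int.card_Icc]; push_cast; omega
      rw [this]; push_cast; linarith
    · have h4 : (1 / 4 : ℝ) ^ b * 4 ^ b = 1 := by rw [← mul_pow]; norm_num
      have hx : (0 : ℝ) < (Pib b : ℝ) * Mb b := by linarith
      rw [hqdef, mul_one_div, mul_div_assoc', div_le_iff₀ (by positivity)]
      have : (1 / 4 : ℝ) ^ b / 8 * (4 ^ b * (1000 * ((Pib b : ℝ) * Mb b))) =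
          ((1 / 4 : ℝ) ^ b * 4 ^ b) * (125 * ((Pib b : ℝ) * Mb b)) := by ring
      rw [this, h4]; linarith
  have c2 : volume {x : UnitAddCircle | ∃ i ∈ F2, x + i • α ∈ S.bad3 b} ≤ ENNReal.ofReal q := by
    refine bound_translate α (n := 4 * (Mb b : ℝ) + 1) ?_ (S.volume_collar_le b) ?_ ?_
    · have : F2.card = 4 * Mb b + 1 := by
        rw [hF2, Int.card_Icc]; omega
      rw [this]; push_cast; exact le_rfl
    · have := S.r1_lt_r3 b
      have : 0 ≤ (S.B b).D.r3 - (S.B b).D.r1 := by linarith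
      positivity
    · rw [← mul_assoc]; exact (S.B b).collar
  have hF3c : (F3.card : ℝ) ≤ 4 * (Mb b : ℝ) + 1 + rb b * Mb b := by
    have : F3.card = 4 * Mb b + 1 + rb b * Mb b := by
      rw [hF3, Int.card_Icc]; push_cast; omega
    rw [this]; push_cast; exact le_rfl
  have c3 : volume {x : UnitAddCircle | ∃ i ∈ F3, x + i • α ∈ S.hi b} ≤ ENNReal.ofReal q :=
    bound_translate α hF3c (S.volume_hi_le b) (by positivity) (tail_num b)
  have c4 : volume {x : UnitAddCircle | ∃ i ∈ F3, x + i • α ∈ ball (0 : UnitAddCircle) (S.B b).δ} ≤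
      ENNReal.ofReal q :=
    bound_translate α hF3c (volume_ball_le _) (by have := (S.B b).δ_pos; positivity) (S.B b).delta
  refine (measure_mono hsub).trans ?_
  refine (measure_union_le _ _).trans ?_
  refine (add_le_add ((measure_union_le _ _).trans (add_le_add c1 c2))
    ((measure_union_le _ _).trans (add_le_add c3 c4))).trans ?_
  rw [← ENNReal.ofReal_add (by positivity) (by positivity),
    ← ENNReal.ofReal_add (by positivity) (by positivity)]
  refine ENNReal.ofReal_le_ofReal ?_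
  rw [hqdef]; linarith

/-! ### D3 -/

theorem D3 (b : ℕ) {x : UnitAddCircle} (hx : x ∉ S.Bad b) (n : ℕ) (hn : n ≤ rb b * Mb b)
    (h1 : S.g b ≤ S.lv b x % Mb b) (h2 : S.g b ≤ (S.lv b x + n) % Mb b) :
    S.c b * (2 * ((((S.lv b x + n) / Mb b : ℕ) : ℝ) - ((S.lv b x / Mb b : ℕ) : ℝ))
        + epsw w b (S.lv b x / Mb b) - epsw w b ((S.lv b x + n) / Mb b))
      ≤ ∑ i ∈ Finset.range n, S.u w (x + i • (θ : UnitAddCircle)) ∧
    ∑ i ∈ Finset.range n, S.u w (x + i • (θ : UnitAddCircle)) ≤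
      S.c b * (2 * ((((S.lv b x + n) / Mb b : ℕ) : ℝ) - ((S.lv b x / Mb b : ℕ) : ℝ))
        + epsw w b (S.lv b x / Mb b) - epsw w b ((S.lv b x + n) / Mb b)) + S.e b := by
  have hM : 1 ≤ Mb b := one_le_Mb b
  have hr : 1 ≤ rb b := one_le_rb b
  have hrP := rb_le_Pib b
  have hrM : Mb b ≤ rb b * Mb b := Nat.le_mul_of_pos_left _ hr
  have hPM : rb b * Mb b + Mb b ≤ Pib b * Mb b := by
    calc rb b * Mb b + Mb b = (rb b + 1) * Mb b := by ring
      _ ≤ _ := Nat.mul_le_mul_right _ hrP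
  obtain ⟨hlev, -⟩ := S.D2 b hx
  simp only [Bad, Set.mem_union, not_or] at hx
  obtain ⟨⟨⟨⟨hb1, hb2⟩, hb3⟩, hb4⟩, hb5⟩ := hx
  set α : UnitAddCircle := (θ : UnitAddCircle) with hα
  set j := S.lv b x with hj
  set y := x - j • α with hy
  have hyx : ∀ i : ℕ, x + i • α = y + (j + i) • α := by
    intro i; rw [hy, add_smul]; abel
  have hyI : y ∈ closedBall (0 : UnitAddCircle) (S.B b).D.r1 := by
    simpa [bad3, ← hj, ← hα] using hb3
  -- no visit of J
  have hnv : ∀ i, 1 ≤ i → i ≤ j + n + Mb b → y + i • α ∉ ball (0 : UnitAddCircle) (S.B b).D.r3 := by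
    intro i hi1 hi2 hmem
    by_cases hij : i ≤ j
    · have hlt : j - i < S.lv b x := by omega
      have := not_mem_of_lt_lev (α := α) (J := S.J b) hlt
      apply this
      have e : x - (j - i) • α = y + i • α := by
        have : j • α = (j - i) • α + i • α := by rw [← add_smul]; congr 1; omega
        rw [hy, this]; abel
      rw [e]; exact hmem
    · refine hb2 ⟨i - j, by unfold LL; omega, ?_⟩
      have e : x + (i - j) • α = y + i • α := by
        have : i • α = j • α + (i - j) • α := by rw [← add_smul]; congr 1; omega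
        rw [hy, this]; abel
      rw [e]; exact hmem
  have hK : (j + n) / Mb b ≤ S.K b := by
    refine (Nat.div_le_self _ _).trans ?_
    have := S.lv_lt b x
    unfold K
    omega
  have hsum := (S.B b).D.sum_cost_column hyI (j := j) (n := n) hnv (by omega) h1 h2 (S.wt w b) hK
  have htel : ∑ k ∈ Ioc (j / Mb b) ((j + n) / Mb b), S.wt w b k =
      S.c b * (2 * ((((j + n) / Mb b : ℕ) : ℝ) - ((j / Mb b : ℕ) : ℝ))
        + epsw w b (j / Mb b) - epsw w b ((j + n) / Mb b)) :=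
    sum_wt (S.c b) (fun k => epsw w b k) (Nat.div_le_div_right (by omega))
  rw [htel] at hsum
  -- decomposition of u along the orbit
  have hdec : ∀ i ∈ Finset.range n, S.u w (x + i • α) =
      ((‖x + i • α‖ ^ 2)⁻¹ + ∑ b' ∈ range b, S.ub w b' (x + i • α)) +
        (S.B b).D.cost (S.wt w b) (S.K b) (y + (j + i) • α) := by
    intro i hi
    simp only [Finset.mem_range] at hi
    have hnot : ∀ b', b + 1 ≤ b' → x + i • α ∉ (S.B b').D.W := by
      intro b' hb' hmem
      apply hb4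
      refine ⟨i, by omega, ?_⟩
      refine Set.mem_iUnion.2 ⟨b' - (b + 1), ?_⟩
      have : b + 1 + (b' - (b + 1)) = b' := by omega
      rw [this]; exact hmem
    rw [S.u_eq w hnot, Finset.sum_range_succ, ← hyx i]
    unfold ub
    ring
  rw [Finset.sum_congr rfl hdec, Finset.sum_add_distrib, hsum]
  have hlow : ∀ i ∈ Finset.range n,
      0 ≤ (‖x + i • α‖ ^ 2)⁻¹ + ∑ b' ∈ range b, S.ub w b' (x + i • α) := by
    intro i _
    have := Finset.sum_nonneg fun b' (_ : b' ∈ range b) => S.ub_nonneg w b' (x + i • α)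
    positivity
  have hupp : ∀ i ∈ Finset.range n,
      (‖x + i • α‖ ^ 2)⁻¹ + ∑ b' ∈ range b, S.ub w b' (x + i • α) ≤
        S.sumC b + ((S.B b).δ ^ 2)⁻¹ := by
    intro i hi
    simp only [Finset.mem_range] at hi
    have h3 : ∑ b' ∈ range b, S.ub w b' (x + i • α) ≤ S.sumC b := by
      rw [S.sumC_eq]
      exact Finset.sum_le_sum fun b' _ => S.ub_le w b' _
    have hδ := (S.B b).δ_pos
    have h4 : (S.B b).δ ≤ ‖x + i • α‖ := by
      by_contra hcon
      push Not at hcon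
      exact hb5 ⟨i, by omega, by simpa using hcon⟩
    have h5 : (‖x + i • α‖ ^ 2)⁻¹ ≤ ((S.B b).δ ^ 2)⁻¹ :=
      inv_anti₀ (by positivity) (pow_le_pow_left₀ hδ.le h4 2)
    linarith
  have hL := Finset.sum_nonneg hlow
  have hU : ∑ i ∈ Finset.range n, ((‖x + i • α‖ ^ 2)⁻¹ + ∑ b' ∈ range b, S.ub w b' (x + i • α)) ≤
      S.e b := by
    refine (Finset.sum_le_sum hupp).trans ?_
    rw [Finset.sum_const, Finset.card_range, nsmul_eq_mul]
    unfold e
    have hpos : 0 ≤ S.sumC b + ((S.B b).δ ^ 2)⁻¹ := by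
      have := S.sumC_nonneg b
      positivity
    refine mul_le_mul_of_nonneg_right ?_ hpos
    exact_mod_cast hn
  constructor <;> linarith

end Setup

/-- T16: the design theorem. -/
theorem exists_design : S_Design := by
  intro θ hθ w
  obtain ⟨S⟩ := exists_setup hθ
  exact ⟨{
    u := S.u w
    u_nonneg := S.u_nonneg w
    cont := S.f_continuous w
    u_meas := S.u_measurable w
    lint := S.lintegral_u w
    c := S.c
    e := S.e
    g := S.g
    lev := S.lv
    Bad := S.Bad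
    lev_meas := S.measurable_lv
    bad_meas := S.measurableSet_Bad
    e_nonneg := S.e_nonneg
    g_le := fun b _ => S.g_le b
    d1 := fun b _ x => lev_add (S.hJ b x)
    d1vol := by
      intro b _
      have hset : {x : UnitAddCircle | S.lv b x = 0} = S.J b := by
        ext x; exact lev_eq_zero_iff (S.hJ b x)
      rw [hset]
      refine (S.volume_J_le b).trans (ENNReal.ofReal_le_ofReal ?_)
      have hM : (1 : ℝ) ≤ Mb b := by exact_mod_cast one_le_Mb b
      have hP : (1 : ℝ) ≤ Pib b := by exact_mod_cast one_le_Pib b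
      have hpos : (0 : ℝ) < (Pib b : ℝ) * Mb b := by positivity
      rw [mul_one_div, div_le_div_iff₀ (by positivity) (by positivity)]
      have h4 : (0 : ℝ) < 4 ^ b := by positivity
      have h5 : (0 : ℝ) < 4 ^ b * ((Pib b : ℝ) * Mb b) := by positivity
      nlinarith
    d2vol := fun b _ => S.D2vol b
    d2 := fun b _ x hx => S.D2 b hx
    d3 := fun b _ x hx n hn h1 h2 => S.D3 w b hx n hn h1 h2
    d4 := fun b _ => le_rfl }⟩

end Crest.Agent.R113.Circ
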