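import Crest.Agent.R113.Circ.Block
import Crest.Agent.R113.Design

/-! Row 113, T16: choice of the parameters of the blocks. -/

set_option autoImplicit false

namespace Crest.Agent.R113.Circ

open MeasureTheory Metric Finset Filter

theorem exists_seq_slow (G K : ℕ → ℕ) (h0 : ∀ b, G 0 ≤ K b) (hK : Tendsto K atTop atTop) :
    ∃ m : ℕ → ℕ, Tendsto m atTop atTop ∧ ∀ b, G (m b) ≤ K b := by
  classical
  refine ⟨fun b => Nat.findGreatest (fun m => G m ≤ K b) b, ?_, fun b => ?_⟩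
  · refine tendsto_atTop.2 fun N => ?_
    filter_upwards [eventually_ge_atTop N, hK.eventually_ge_atTop (G N)] with b hb hKb
    exact Nat.le_findGreatest hb hKb
  · exact Nat.findGreatest_spec (P := fun m => G m ≤ K b) (Nat.zero_le b) (h0 b)

/-- slowly shrinking arcs with hitting gap `≤ M_b / 4^b` -/
theorem exists_arcs {θ : ℝ} (hθ : Irrational θ) :
    ∃ (v : ℕ → ℝ) (g : ℕ → ℕ), Tendsto v atTop (nhds 0) ∧ (∀ b, 4 ^ b * g b ≤ Mb b) ∧
      (∀ b, 1 ≤ g b) ∧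
      ∀ b, ∀ x : UnitAddCircle, ∃ j < g b, x + j • (θ : UnitAddCircle) ∈ ball (0 : UnitAddCircle) (v b) := by
  classical
  have hG : ∀ m : ℕ, ∃ G : ℕ, (m = 0 → G = 1) ∧ 1 ≤ G ∧ ∀ x : UnitAddCircle, ∃ j < G,
      x + j • (θ : UnitAddCircle) ∈ ball (0 : UnitAddCircle) (1 / ((m : ℝ) + 1)) := by
    intro m
    rcases Nat.eq_zero_or_pos m with rfl | hm
    · refine ⟨1, fun _ => rfl, le_rfl, fun x => ⟨0, one_pos, ?_⟩⟩
      simp only [zero_smul, add_zero, Nat.cast_zero, zero_add, div_one, mem_ball, dist_zero_right]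
      have := AddCircle.norm_le_half_period (p := (1 : ℝ)) (x := x) one_ne_zero
      rw [abs_one] at this
      linarith
    · obtain ⟨G, h1, h2⟩ := exists_gap hθ (r := 1 / ((m : ℝ) + 1)) (by positivity)
      exact ⟨G, fun h => by omega, h1, h2⟩
  choose G hG0 hG1 hG2 using hG
  have hMK : ∀ b : ℕ, Mb b / 4 ^ b = 2 ^ (20 * b ^ 2 - 2 * b) := by
    intro b
    have h1 : 2 * b ≤ 20 * b ^ 2 := by nlinarith [Nat.zero_le b]
    unfold Mb
    have : (4 : ℕ) ^ b = 2 ^ (2 * b) := by rw [pow_mul]; norm_num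
    rw [this, Nat.pow_div h1 (by norm_num)]
  obtain ⟨m, hm1, hm2⟩ := exists_seq_slow G (fun b => Mb b / 4 ^ b)
    (fun b => by rw [hG0 0 rfl, hMK]; exact Nat.one_le_two_pow)
    (by
      refine tendsto_atTop_mono (fun b => ?_) tendsto_id
      rw [hMK]
      have h1 : b ≤ 20 * b ^ 2 - 2 * b := by
        have : 3 * b ≤ 20 * b ^ 2 := by nlinarith [Nat.zero_le b]
        omega
      calc b ≤ 2 ^ b := Nat.lt_two_pow_self.le
        _ ≤ _ := Nat.pow_le_pow_right (by norm_num) h1)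
  refine ⟨fun b => 1 / ((m b : ℝ) + 1), fun b => G (m b), ?_, fun b => ?_, fun b => hG1 _,
    fun b x => hG2 _ x⟩
  · exact tendsto_one_div_add_atTop_nhds_zero_nat.comp hm1
  · have := hm2 b
    calc 4 ^ b * G (m b) ≤ 4 ^ b * (Mb b / 4 ^ b) := Nat.mul_le_mul_left _ this
      _ ≤ Mb b := Nat.mul_div_le _ _

/-- small positive parameter -/
theorem exists_small (C c' : ℝ) (hC : 0 ≤ C) (hc : 0 < c') : ∃ δ : ℝ, 0 < δ ∧ C * δ ≤ c' := by
  refine ⟨c' / (C + 1), by positivity, ?_⟩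
  rw [mul_div_assoc', div_le_iff₀ (by positivity)]
  nlinarith

/-- one block with all its parameters -/
structure BlockPar (θ : ℝ) (b : ℕ) (v : ℝ) (g : ℕ) where
  D : BlockData (θ : UnitAddCircle) (Mb b) g
  t_mem : ∀ k, D.t k • (θ : UnitAddCircle) ∈ ball (0 : UnitAddCircle) v
  H : ℕ
  δ : ℝ
  δ_pos : 0 < δ
  r1_pos : 0 < D.r1
  gap : ∀ x : UnitAddCircle, ∃ j < H, x - j • (θ : UnitAddCircle) ∈ ball (0 : UnitAddCircle) D.r1
  r3_le : D.r3 ≤ 1 / (4 ^ b * (1000 * ((Pib b : ℝ) * Mb b)))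
  r3_half : D.r3 ≤ 1 / 2
  r2_le : D.r2 ≤ 1 / ((b : ℝ) + 1)
  collar : ((4 * (Mb b : ℝ) + 1) * (H + 1)) * (2 * (D.r3 - D.r1)) ≤ (1 / 4 : ℝ) ^ b / 8
  delta : (4 * (Mb b : ℝ) + 1 + rb b * Mb b) * (2 * δ) ≤ (1 / 4 : ℝ) ^ b / 8

theorem exists_blockPar {θ : ℝ} (hθ : Irrational θ) (b : ℕ) (v : ℝ) (g : ℕ)
    (hg : ∀ x : UnitAddCircle, ∃ j < g, x + j • (θ : UnitAddCircle) ∈ ball (0 : UnitAddCircle) v) :
    Nonempty (BlockPar θ b v g) := by
  have hM : 1 ≤ (Mb b : ℝ) := by unfold Mb; exact_mod_cast Nat.one_le_two_pow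
  have hP : 1 ≤ (Pib b : ℝ) := by unfold Pib; exact_mod_cast Nat.one_le_two_pow
  -- times
  have ht : ∀ k : ℕ, ∃ t : ℕ, k * Mb b ≤ t ∧ t < k * Mb b + g ∧
      t • (θ : UnitAddCircle) ∈ ball (0 : UnitAddCircle) v := by
    intro k
    obtain ⟨j, hj, hjm⟩ := hg ((k * Mb b) • (θ : UnitAddCircle))
    exact ⟨k * Mb b + j, by omega, by omega, by rw [add_smul]; exact hjm⟩
  choose t t1 t2 t3 using ht
  -- radii
  set R0 : ℝ := 1 / (4 ^ b * (1000 * ((Pib b : ℝ) * Mb b))) with hR0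
  have hPM : 1 ≤ (Pib b : ℝ) * Mb b := one_le_mul_of_one_le_of_one_le hP hM
  have h4b : (1 : ℝ) ≤ 4 ^ b := one_le_pow₀ (by norm_num)
  have hden : (4 : ℝ) ^ b * 1000 ≤ 4 ^ b * (1000 * ((Pib b : ℝ) * Mb b)) := by
    have : (1000 : ℝ) ≤ 1000 * ((Pib b : ℝ) * Mb b) := by linarith
    exact mul_le_mul_of_nonneg_left this (by positivity)
  have hR0pos : 0 < R0 := by positivity
  have hR0le : R0 ≤ 1 / (4 ^ b * 1000) := one_div_le_one_div_of_le (by positivity) hden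
  have hb1 : (b : ℝ) + 1 ≤ 4 ^ b := by
    have : b + 1 ≤ 4 ^ b := Nat.succ_le_of_lt (Nat.lt_pow_self (by norm_num))
    exact_mod_cast this
  obtain ⟨H, -, hH⟩ := exists_gap_back hθ (r := R0 / 2) (by positivity)
  obtain ⟨η0, hη0, hη0'⟩ := exists_small (((4 * (Mb b : ℝ) + 1) * (H + 1)) * 2) ((1 / 4 : ℝ) ^ b / 8)
    (by positivity) (by positivity)
  obtain ⟨δ, hδ, hδ'⟩ := exists_small ((4 * (Mb b : ℝ) + 1 + rb b * Mb b) * 2) ((1 / 4 : ℝ) ^ b / 8)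
    (by positivity) (by positivity)
  set η := min η0 (R0 / 2) with hη
  have hηpos : 0 < η := lt_min hη0 (by positivity)
  have hη1 : η ≤ η0 := min_le_left _ _
  have hη2 : η ≤ R0 / 2 := min_le_right _ _
  obtain ⟨D, hDt, hD1, hD2, hD3⟩ := exists_blockData (θ : UnitAddCircle) (Mb b) g t t1 t2
    (R0 / 2) (R0 / 2 + η / 2) (R0 / 2 + η) (by linarith) (by linarith)
  refine ⟨⟨D, fun k => by rw [hDt]; exact t3 k, H, δ, hδ, by rw [hD1]; positivity,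
    by rw [hD1]; exact hH, by rw [hD3]; linarith, ?_, ?_, ?_, by linarith⟩⟩
  · rw [hD3]
    have : 1 / ((4 : ℝ) ^ b * 1000) ≤ 1 / 2 := one_div_le_one_div_of_le (by norm_num) (by linarith)
    linarith
  · rw [hD2]
    have h5 : 1 / ((4 : ℝ) ^ b * 1000) ≤ 1 / ((b : ℝ) + 1) :=
      one_div_le_one_div_of_le (by positivity) (by linarith)
    linarith
  · rw [hD3, hD1]
    have e : R0 / 2 + η - R0 / 2 = η := by ring
    rw [e]
    calc ((4 * (Mb b : ℝ) + 1) * (H + 1)) * (2 * η)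
        = (((4 * (Mb b : ℝ) + 1) * (H + 1)) * 2) * η := by ring
      _ ≤ (((4 * (Mb b : ℝ) + 1) * (H + 1)) * 2) * η0 :=
          mul_le_mul_of_nonneg_left hη1 (by positivity)
      _ ≤ _ := hη0'

/-! ### numerics -/

theorem one_le_Mb (b : ℕ) : 1 ≤ Mb b := Nat.one_le_two_pow
theorem one_le_rb (b : ℕ) : 1 ≤ rb b := Nat.one_le_two_pow
theorem one_le_Pib (b : ℕ) : 1 ≤ Pib b := Nat.one_le_two_pow

theorem two_le_Mb {b : ℕ} (hb : 1 ≤ b) : 2 ≤ Mb b := by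
  unfold Mb
  calc 2 = 2 ^ 1 := rfl
    _ ≤ _ := Nat.pow_le_pow_right (by norm_num) (by nlinarith)

theorem rb_le_Pib (b : ℕ) : rb b + 1 ≤ Pib b := by
  have h0 : 1 ≤ 2 ^ (30 * b) := Nat.one_le_two_pow
  have h1 : 2 ^ (30 * b) + 1 ≤ 2 ^ (30 * b + 1) := by rw [pow_succ]; omega
  have h2 : b ≤ b ^ 2 := Nat.le_self_pow two_ne_zero b
  have h3 : 30 * b + 1 ≤ 6000 * b ^ 2 + 10 := by omega
  have h4 : 2 ^ (30 * b + 1) ≤ 2 ^ (6000 * b ^ 2 + 10) := Nat.pow_le_pow_right (by norm_num) h3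
  unfold rb Pib
  exact h1.trans h4

/-- `M_{b+1+j} ≥ 2^j M_{b+1}` and the smallness of the tail sum -/
theorem Mb_growth (b j : ℕ) : Mb (b + 1) * 2 ^ j ≤ Mb (b + 1 + j) := by
  unfold Mb
  rw [← pow_add]
  refine Nat.pow_le_pow_right (by norm_num) ?_
  nlinarith [Nat.zero_le b, Nat.zero_le j]

theorem Mb_succ_ge (b : ℕ) : 2 ^ 20 * (4 ^ b * (rb b * Mb b)) ≤ Mb (b + 1) := by
  have : (4 : ℕ) ^ b = 2 ^ (2 * b) := by rw [pow_mul]; norm_num
  unfold Mb rb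
  rw [this, ← pow_add, ← pow_add, ← pow_add]
  refine Nat.pow_le_pow_right (by norm_num) ?_
  nlinarith [Nat.zero_le b]

theorem tail_num_aux (M r M1 q F : ℝ) (hM : 1 ≤ M) (hr : 1 ≤ r) (hM1 : 1 ≤ M1) (hq : 0 < q)
    (hqF : q * F = 1) (h1 : (2 : ℝ) ^ 20 * (F * (r * M)) ≤ M1) :
    (4 * M + 1 + r * M) * (6 / M1) ≤ q / 8 := by
  have hrM : M ≤ r * M := le_mul_of_one_le_left (by linarith) hr
  have h2 : (4 * M + 1 + r * M) ≤ 6 * (r * M) := by linarith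
  rw [mul_div_assoc', div_le_iff₀ (by linarith)]
  have h0 : 0 ≤ r * M := by positivity
  calc (4 * M + 1 + r * M) * 6 ≤ 36 * (r * M) := by linarith
    _ = (q * F) * (36 * (r * M)) := by rw [hqF, one_mul]
    _ ≤ q / 8 * ((2 : ℝ) ^ 20 * (F * (r * M))) := by
        have : q / 8 * ((2 : ℝ) ^ 20 * (F * (r * M))) = (q * F) * (131072 * (r * M)) := by ring
        rw [this, hqF]
        linarith
    _ ≤ _ := mul_le_mul_of_nonneg_left h1 (by positivity)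

theorem tail_num (b : ℕ) : (4 * (Mb b : ℝ) + 1 + rb b * Mb b) * (6 / Mb (b + 1)) ≤
    (1 / 4 : ℝ) ^ b / 8 := by
  have hM : (1 : ℝ) ≤ Mb b := by exact_mod_cast one_le_Mb b
  have hr : (1 : ℝ) ≤ rb b := by exact_mod_cast one_le_rb b
  have hM1 : (1 : ℝ) ≤ Mb (b + 1) := by exact_mod_cast one_le_Mb (b + 1)
  have h1 : (2 : ℝ) ^ 20 * (4 ^ b * (rb b * Mb b)) ≤ Mb (b + 1) := by exact_mod_cast Mb_succ_ge b
  have h3 : (1 / 4 : ℝ) ^ b * 4 ^ b = 1 := by rw [← mul_pow]; norm_num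
  exact tail_num_aux _ _ _ _ _ hM hr hM1 (by positivity) h3 h1

end Crest.Agent.R113.Circ
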